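import Vale.Agent.P011.E6.Act

/-!
Matrices of degree three over a split quaternion algebra.
-/

open Matrix

namespace Vale.Agent.P011.E6O.H68

open Vale.Agent.P011.MPQ Vale.Agent.P011.D4 Vale.Agent.P011.D4.Oct Vale.Agent.P011.E6
open Vale.Agent.P011.E6.H64 Vale.Agent.P011.E6.Alb

variable {F : Type} [Field F] {a b c : Fˣ} {α : F}

theorem al_ne (hα : α * α = a) : α ≠ 0 := fun h => a.ne_zero (by rw [← hα, h, mul_zero])

/-- The splitting of the quaternion algebra by a square root of `a`. -/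
noncomputable def spq (h2 : (2 : F) ≠ 0) (hα : α * α = a) :
    Qt a b ≃ₐ[F] Matrix (Fin 2) (Fin 2) F where
  toFun q := !![q.re + α * q.imI, q.imJ + α * q.imK; b * (q.imJ - α * q.imK), q.re - α * q.imI]
  invFun M := ⟨(M 0 0 + M 1 1) / 2, (M 0 0 - M 1 1) / (2 * α), (M 0 1 + M 1 0 / b) / 2,
    (M 0 1 - M 1 0 / b) / (2 * α)⟩
  left_inv q := by
    have h0 := al_ne hα
    have hb : (b : F) ≠ 0 := b.ne_zero
    apply QuaternionAlgebra.ext
    · simp only [Matrix.of_apply, Matrix.cons_val_zero, Matrix.cons_val_one, Matrix.cons_val]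
      field_simp
      ring
    · simp only [Matrix.of_apply, Matrix.cons_val_zero, Matrix.cons_val_one, Matrix.cons_val]
      field_simp
      ring
    · simp only [Matrix.of_apply, Matrix.cons_val_zero, Matrix.cons_val_one, Matrix.cons_val]
      field_simp
      ring
    · simp only [Matrix.of_apply, Matrix.cons_val_zero, Matrix.cons_val_one, Matrix.cons_val]
      field_simp
      ring
  right_inv M := by
    have h0 := al_ne hα
    have hb : (b : F) ≠ 0 := b.ne_zero
    ext i j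
    fin_cases i <;> fin_cases j <;> simp <;> field_simp <;> ring
  map_mul' x y := by
    ext i j
    fin_cases i <;> fin_cases j <;>
      simp [Matrix.mul_apply, Fin.sum_univ_two, ← hα] <;> ring
  map_add' x y := by
    ext i j
    fin_cases i <;> fin_cases j <;> simp <;> ring
  commutes' t := by
    ext i j
    fin_cases i <;> fin_cases j <;> simp [Algebra.algebraMap_eq_smul_one]

theorem det_spq (h2 : (2 : F) ≠ 0) (hα : α * α = a) (q : Qt a b) :
    (spq h2 hα q).det = nrd q := by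
  change (!![q.re + α * q.imI, q.imJ + α * q.imK; b * (q.imJ - α * q.imK),
    q.re - α * q.imI] : Matrix (Fin 2) (Fin 2) F).det = nrd q
  rw [Matrix.det_fin_two_of, nrd]
  linear_combination (b * q.imK ^ 2 - q.imI ^ 2) * hα

/-- The inverse of the passage to matrices of degree six. -/
noncomputable def unspl (f : Qt a b ≃ₐ[F] Matrix (Fin 2) (Fin 2) F)
    (G : Matrix (Fin 3 × Fin 2) (Fin 3 × Fin 2) F) : Matrix (Fin 3) (Fin 3) (Qt a b) :=
  Matrix.of fun i j => f.symm (Matrix.of fun r s => G (i, r) (j, s))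

variable (f : Qt a b ≃ₐ[F] Matrix (Fin 2) (Fin 2) F)

theorem spl2_unspl (G : Matrix (Fin 3 × Fin 2) (Fin 3 × Fin 2) F) :
    spl2 (f : Qt a b →ₐ[F] Matrix (Fin 2) (Fin 2) F) (unspl f G) = G := by
  ext ⟨i, r⟩ ⟨j, s⟩
  change f (f.symm _) r s = _
  rw [AlgEquiv.apply_symm_apply]
  rfl

theorem unspl_spl2 (M : Matrix (Fin 3) (Fin 3) (Qt a b)) :
    unspl f (spl2 (f : Qt a b →ₐ[F] Matrix (Fin 2) (Fin 2) F) M) = M := by
  ext1 i j
  change f.symm (f (M i j)) = _
  rw [AlgEquiv.symm_apply_apply]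

theorem unspl_mul (A B : Matrix (Fin 3 × Fin 2) (Fin 3 × Fin 2) F) :
    unspl f (A * B) = unspl f A * unspl f B := by
  rw [← unspl_spl2 f (unspl f A * unspl f B), spl2_mul, spl2_unspl, spl2_unspl]

theorem unspl_diagonal (D : Fin 3 × Fin 2 → F) : unspl f (diagonal D) =
    (1 + single 0 0 (f.symm (diagonal fun r => D (0, r)) - 1)) *
    (1 + single 1 1 (f.symm (diagonal fun r => D (1, r)) - 1)) *
    (1 + single 2 2 (f.symm (diagonal fun r => D (2, r)) - 1)) := by
  have h : ∀ i j : Fin 3, unspl f (diagonal D) i j =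
      if i = j then f.symm (diagonal fun r => D (i, r)) else 0 := by
    intro i j
    by_cases hij : i = j
    · subst hij
      rw [if_pos rfl]
      change f.symm _ = f.symm _
      congr 1
      ext r s
      by_cases hrs : r = s
      · subst hrs; simp
      · simp [hrs]
    · rw [if_neg hij]
      change f.symm _ = _
      rw [← map_zero f.symm]
      congr 1
      ext r s
      simp [hij]
  ext1 i j
  rw [h]
  fin_cases i <;> fin_cases j <;>
    simp [Matrix.mul_apply, Fin.sum_univ_three, Matrix.single_apply, Matrix.one_apply]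

theorem unspl_transvection (t : Matrix.TransvectionStruct (Fin 3 × Fin 2) F) :
    unspl f t.toMatrix = 1 + single t.i.1 t.j.1 (f.symm (single t.i.2 t.j.2 t.c)) := by
  obtain ⟨⟨i, r⟩, ⟨j, s⟩, hij, c⟩ := t
  have h1 : unspl f (1 : Matrix (Fin 3 × Fin 2) (Fin 3 × Fin 2) F) = 1 := by
    rw [← unspl_spl2 f 1, spl2_one]
  have hadd : ∀ A B, unspl f (A + B) = unspl f A + unspl f B := fun A B => by
    ext1 i j
    change f.symm _ = f.symm _ + f.symm _
    rw [← map_add]
    rfl
  rw [Matrix.TransvectionStruct.toMatrix, Matrix.transvection, hadd, h1]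
  congr 1
  ext1 i' j'
  change f.symm (Matrix.of fun r' s' => (single (i, r) (j, s) c :
    Matrix (Fin 3 × Fin 2) (Fin 3 × Fin 2) F) (i', r') (j', s')) =
    (single i j (f.symm (single r s c)) : Matrix (Fin 3) (Fin 3) (Qt a b)) i' j'
  by_cases hi : i = i'
  · subst hi
    by_cases hj : j = j'
    · subst hj
      rw [Matrix.single_apply_same]
      congr 1
      ext r' s'
      simp [Matrix.single_apply]
    · have hR : (single i j (f.symm (single r s c)) : Matrix (Fin 3) (Fin 3) (Qt a b)) i j' =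
          f.symm 0 := by
        rw [map_zero, Matrix.single_apply, if_neg (fun h => hj h.2)]
      rw [hR]
      congr 1
      ext r' s'
      simp [Matrix.single_apply, hj]
  · have hR : (single i j (f.symm (single r s c)) : Matrix (Fin 3) (Fin 3) (Qt a b)) i' j' =
        f.symm 0 := by
      rw [map_zero, Matrix.single_apply, if_neg (fun h => hi h.1)]
    rw [hR]
    congr 1
    ext r' s'
    simp [Matrix.single_apply, hi]

include f in
/-- Induction for matrices of degree three over a split quaternion algebra. -/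
theorem ind_split {P : Matrix (Fin 3) (Fin 3) (Qt a b) → Prop}
    (hmul : ∀ A B, P A → P B → P (A * B)) (hE : ∀ i j q, P (1 + single i j q))
    (M : Matrix (Fin 3) (Fin 3) (Qt a b)) : P M := by
  have key := Matrix.diagonal_transvection_induction
    (P := fun G : Matrix (Fin 3 × Fin 2) (Fin 3 × Fin 2) F => P (unspl f G))
    (spl2 (f : Qt a b →ₐ[F] Matrix (Fin 2) (Fin 2) F) M)
    (fun D _ => by
      rw [unspl_diagonal]
      exact hmul _ _ (hmul _ _ (hE _ _ _) (hE _ _ _)) (hE _ _ _))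
    (fun t => by
      rw [unspl_transvection]
      exact hE _ _ _)
    (fun A B hA hB => by
      rw [unspl_mul]
      exact hmul _ _ hA hB)
  rwa [unspl_spl2] at key

section nu

variable (h2 : (2 : F) ≠ 0)
include h2 f

theorem herN_mulS (M : Matrix (Fin 3) (Fin 3) (Qt a b)) :
    ∀ S : Matrix (Fin 3) (Fin 3) (Qt a b), S.IsHermitian →
      herN (M * S * Mᴴ) = nu M * herN S := by
  have h1 : (1 : Matrix (Fin 3) (Fin 3) (Qt a b)).IsHermitian := isHermitian_one
  have key := ind_split f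
    (P := fun M => ∀ S : Matrix (Fin 3) (Fin 3) (Qt a b), S.IsHermitian →
      herN (M * S * Mᴴ) = herN (M * 1 * Mᴴ) * herN S) ?_ ?_ M
  · intro S hS
    rw [key S hS, nu_eq, mul_one]
  · intro A B hA hB S hS
    have e : ∀ T : Matrix (Fin 3) (Fin 3) (Qt a b), A * B * T * (A * B)ᴴ = A * (B * T * Bᴴ) * Aᴴ :=
      fun T => by rw [conjTranspose_mul]; simp only [Matrix.mul_assoc]
    rw [e, e, hA _ (conj_isHermitian hS B), hA _ (conj_isHermitian h1 B), hB S hS, ← mul_assoc]
  · intro i j q S hS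
    by_cases hij : i = j
    · subst hij
      rw [herN_single_diag' h2 hS, herN_single_diag' h2 h1, herN_one, mul_one]
    · rw [herN_single' h2 hS hij, herN_single' h2 h1 hij, herN_one, one_mul]

theorem nu_mulS (A B : Matrix (Fin 3) (Fin 3) (Qt a b)) : nu (A * B) = nu A * nu B := by
  have e : A * B * (A * B)ᴴ = A * (B * 1 * Bᴴ) * Aᴴ := by
    rw [conjTranspose_mul]; simp only [Matrix.mul_assoc, Matrix.mul_one]
  rw [nu_eq, e, herN_mulS f h2 _ _ (conj_isHermitian isHermitian_one B), nu_eq B, mul_one]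

theorem nu_ne_zeroS (g : (Matrix (Fin 3) (Fin 3) (Qt a b))ˣ) :
    nu (g : Matrix (Fin 3) (Fin 3) (Qt a b)) ≠ 0 := by
  intro h0
  have h := nu_mulS f h2 ((g⁻¹ : (Matrix (Fin 3) (Fin 3) (Qt a b))ˣ) :
      Matrix (Fin 3) (Fin 3) (Qt a b)) g
  rw [H64.units_inv_mul, E6.nu_one, h0, mul_zero] at h
  exact one_ne_zero h

theorem cub_actS (g : (Matrix (Fin 3) (Fin 3) (Qt a b))ˣ)
    {κ : Qt a b} (hκ : nrd κ = nu (g : Matrix (Fin 3) (Fin 3) (Qt a b))) (x : Alb a b c) :
    cub (act g κ x) = nu (g : Matrix (Fin 3) (Fin 3) (Qt a b)) * cub x := by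
  rw [cub_eq, cub_eq, mat_act h2, row_vec_act, herN_mulS f h2 _ _ (mat_isHermitian x)]
  set v := row (Alb.vec x)
  set S := mat x
  have e : q1 κ * (v * ((g⁻¹ : (Matrix (Fin 3) (Fin 3) (Qt a b))ˣ) :
      Matrix (Fin 3) (Fin 3) (Qt a b))) * ((g : Matrix (Fin 3) (Fin 3) (Qt a b)) * S *
        (g : Matrix (Fin 3) (Fin 3) (Qt a b))ᴴ) * (q1 κ * (v *
        ((g⁻¹ : (Matrix (Fin 3) (Fin 3) (Qt a b))ˣ) : Matrix (Fin 3) (Fin 3) (Qt a b))))ᴴ =
      q1 κ * (v * S * vᴴ) * q1 (star κ) := by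
    have e1 : (g : Matrix (Fin 3) (Fin 3) (Qt a b))ᴴ *
        ((g⁻¹ : (Matrix (Fin 3) (Fin 3) (Qt a b))ˣ) : Matrix (Fin 3) (Fin 3) (Qt a b))ᴴ = 1 := by
      rw [← conjTranspose_mul, units_inv_mul, conjTranspose_one]
    rw [conjTranspose_mul, conjTranspose_mul, q1_conjTranspose]
    calc _ = q1 κ * (v * (((g⁻¹ : (Matrix (Fin 3) (Fin 3) (Qt a b))ˣ) :
          Matrix (Fin 3) (Fin 3) (Qt a b)) * (g : Matrix (Fin 3) (Fin 3) (Qt a b))) * S *
          ((g : Matrix (Fin 3) (Fin 3) (Qt a b))ᴴ *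
        ((g⁻¹ : (Matrix (Fin 3) (Fin 3) (Qt a b))ˣ) : Matrix (Fin 3) (Fin 3) (Qt a b))ᴴ) * vᴴ) *
          q1 (star κ) := by simp only [Matrix.mul_assoc]
      _ = _ := by rw [e1, units_inv_mul, Matrix.mul_one, Matrix.mul_one]
  rw [e]
  rw [eq_q1 h2 (conj_isHermitian (mat_isHermitian x) v), ← q1_mul, ← q1_mul]
  have e2 : κ * ((((v * S * vᴴ) 0 0).re : F) : Qt a b) * star κ =
      ((((v * S * vᴴ) 0 0).re * nrd κ : F) : Qt a b) := by
    rw [← QuaternionAlgebra.coe_commutes, mul_assoc, mul_star_qt, QuaternionAlgebra.coe_mul]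
  rw [e2]
  simp only [q1, Matrix.of_apply, QuaternionAlgebra.re_coe]
  rw [hκ]
  ring

/-- `nu` is the determinant of the matrix of degree six. -/
theorem nu_eq_det (hf : ∀ x, (f x).det = nrd x) (M : Matrix (Fin 3) (Fin 3) (Qt a b)) :
    nu M = (spl2 (f : Qt a b →ₐ[F] Matrix (Fin 2) (Fin 2) F) M).det := by
  refine ind_split f
    (P := fun M => nu M = (spl2 (f : Qt a b →ₐ[F] Matrix (Fin 2) (Fin 2) F) M).det) ?_ ?_ M
  · intro A B hA hB
    rw [nu_mulS f h2, hA, hB, spl2_mul, Matrix.det_mul]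
  · intro i j q
    change nu (1 + single i j q) = rN (f : Qt a b →ₐ[F] Matrix (Fin 2) (Fin 2) F) (1 + single i j q)
    have h1 : (1 : Matrix (Fin 3) (Fin 3) (Qt a b)).IsHermitian := isHermitian_one
    have h3 : ∀ A : Matrix (Fin 3) (Fin 3) (Qt a b), nu A = herN (A * 1 * Aᴴ) := fun A => by
      rw [nu_eq, Matrix.mul_one]
    rw [rN_single, h3]
    by_cases hij : i = j
    · subst hij
      rw [if_pos rfl, herN_single_diag' h2 h1, herN_one, mul_one]
      exact (hf _).symm
    · rw [if_neg hij, herN_single' h2 h1 hij, herN_one]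

end nu

end Vale.Agent.P011.E6O.H68
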