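import Vale.Agent.P011S.Defs
import Vale.Agent.P011.E6O.DD
import Vale.Agent.P011.E6O.H68.Split

/-!
Matrices of degree two over the cyclic algebra, as matrices of degree three over the quaternion
algebra.
-/

open Matrix

namespace Vale.Agent.P011.E6O.H68

open Vale.Agent.P011.MPQ Vale.Agent.P011.D4 Vale.Agent.P011.D4.Oct Vale.Agent.P011.E6
open Vale.Agent.P011.E6.H64 Vale.Agent.P011.E6.Alb Vale.Agent.P011.E6I
open Vale.Agent.P011S (UH SU redNorm)

section sw

variable {E : Type} [Field E] {a b : Eˣ}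

/-- The passage from matrices of degree two over `M₃(E)` to matrices of degree three over the
quaternion algebra. -/
noncomputable def sw (f : Qt a b ≃ₐ[E] Matrix (Fin 2) (Fin 2) E) :
    Matrix (Fin 2) (Fin 2) (Matrix (Fin 3) (Fin 3) E) ≃+* Matrix (Fin 3) (Fin 3) (Qt a b) where
  toFun g := Matrix.of fun i j => f.symm (Matrix.of fun p q => g p q i j)
  invFun m := Matrix.of fun p q => Matrix.of fun i j => f (m i j) p q
  left_inv g := by
    ext p q i j
    simp
  right_inv m := by
    ext1 i j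
    change f.symm (f (m i j)) = m i j
    exact f.symm_apply_apply _
  map_mul' g h := by
    ext1 i j
    rw [Matrix.mul_apply]
    simp only [Matrix.of_apply]
    apply f.injective
    rw [map_sum, AlgEquiv.apply_symm_apply]
    ext p q
    rw [Matrix.of_apply, Matrix.mul_apply, Matrix.sum_apply, Matrix.sum_apply]
    simp only [map_mul, AlgEquiv.apply_symm_apply, Matrix.mul_apply, Matrix.of_apply]
    rw [Finset.sum_comm]
  map_add' g h := by
    ext1 i j
    rw [Matrix.add_apply]
    simp only [Matrix.of_apply]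
    rw [← map_add]
    rfl

theorem sw_apply (f : Qt a b ≃ₐ[E] Matrix (Fin 2) (Fin 2) E)
    (g : Matrix (Fin 2) (Fin 2) (Matrix (Fin 3) (Fin 3) E)) (i j : Fin 3) (p q : Fin 2) :
    f (sw f g i j) p q = g p q i j := by
  change f (f.symm _) p q = _
  rw [AlgEquiv.apply_symm_apply]
  rfl

theorem sw_symm_apply (f : Qt a b ≃ₐ[E] Matrix (Fin 2) (Fin 2) E)
    (m : Matrix (Fin 3) (Fin 3) (Qt a b)) (i j : Fin 3) (p q : Fin 2) :
    (sw f).symm m p q i j = f (m i j) p q := rfl

/-- The conjugate of a quaternion, twisted by an automorphism of the field. -/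
def tws (s : E ≃+* E) (x : Qt a b) : Qt a b := ⟨s x.re, -s x.imI, -s x.imJ, -s x.imK⟩

/-- The involution of the matrices of degree three over the quaternion algebra. -/
def mdag (s : E ≃+* E) (G : Fin 3 → Eˣ) (m : Matrix (Fin 3) (Fin 3) (Qt a b)) :
    Matrix (Fin 3) (Fin 3) (Qt a b) :=
  Matrix.of fun i j => (((G i)⁻¹ : Eˣ) * (G j : E)) • tws s (m j i)

end sw

section th

variable {K E : Type} [Field K] [StarRing K] [Field E] [Algebra K E] (S : Dat K E) {a b : Eˣ}

/-- The matrices of degree two over the cyclic algebra, as matrices of degree three over the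
quaternion algebra. -/
noncomputable def th (f : Qt a b ≃ₐ[E] Matrix (Fin 2) (Fin 2) E) :
    Matrix (Fin 2) (Fin 2) S.D →+* Matrix (Fin 3) (Fin 3) (Qt a b) :=
  (sw f : _ →+* _).comp (S.f : S.D →+* Matrix (Fin 3) (Fin 3) E).mapMatrix

variable (f : Qt a b ≃ₐ[E] Matrix (Fin 2) (Fin 2) E)

theorem th_apply (g : Matrix (Fin 2) (Fin 2) S.D) (i j : Fin 3) (p q : Fin 2) :
    f (th S f g i j) p q = S.f (g p q) i j := sw_apply f _ i j p q

theorem th_injective : Function.Injective (th S f) := by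
  intro g h hgh
  ext1 p q
  apply S.f_injective
  ext i j
  rw [← th_apply S f, ← th_apply S f, hgh]

theorem ext_f {m n : Matrix (Fin 3) (Fin 3) (Qt a b)}
    (h : ∀ i j p q, f (m i j) p q = f (n i j) p q) : m = n := by
  ext1 i j
  apply f.injective
  ext p q
  exact h i j p q

/-- The image. -/
theorem exists_th {m : Matrix (Fin 3) (Fin 3) (Qt a b)}
    (hm : ∀ p q, InD0 S.ρ S.lam (Matrix.of fun i j => f (m i j) p q)) :
    ∃ g : Matrix (Fin 2) (Fin 2) S.D, th S f g = m := by
  refine ⟨Matrix.of fun p q => S.el (hm p q), ext_f f fun i j p q => ?_⟩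
  rw [th_apply, Matrix.of_apply, S.f_el, Matrix.of_apply]

theorem th_mem (g : Matrix (Fin 2) (Fin 2) S.D) (p q : Fin 2) :
    InD0 S.ρ S.lam (Matrix.of fun i j => f (th S f g i j) p q) := by
  have e : (Matrix.of fun i j => f (th S f g i j) p q) = S.f (g p q) := by
    ext i j
    exact th_apply S f g i j p q
  rw [e]
  exact S.f_mem _

omit [StarRing K] in
theorem redNorm_eq {D : Type} [DivisionRing D] [Algebra K D] {p : ℕ}
    (f : D →ₐ[K] Matrix (Fin p) (Fin p) E) (μ : Type) [Fintype μ] [DecidableEq μ]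
    (x : Matrix μ μ D) :
    redNorm f μ x = (Matrix.of fun a b : μ × Fin p => f (x a.1 b.1) a.2 b.2).det := rfl

/-- The reduced norm. -/
theorem nu_th (h2 : (2 : E) ≠ 0) (hf : ∀ x, (f x).det = nrd x)
    (g : Matrix (Fin 2) (Fin 2) S.D) : nu (th S f g) = redNorm S.f (Fin 2) g := by
  rw [nu_eq_det f h2 hf]
  have e : spl2 (f : Qt a b →ₐ[E] Matrix (Fin 2) (Fin 2) E) (th S f g) =
      (Matrix.of fun x y : Fin 2 × Fin 3 => S.f (g x.1 y.1) x.2 y.2).submatrix
        (Equiv.prodComm (Fin 3) (Fin 2)) (Equiv.prodComm (Fin 3) (Fin 2)) := by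
    ext ⟨i, p⟩ ⟨j, q⟩
    exact th_apply S f g i j p q
  rw [e, Matrix.det_submatrix_equiv_self, redNorm_eq]

end th

section dag

variable {K E : Type} [Field K] [StarRing K] [Field E] [Algebra K E] (S : Dat K E) {a b : Eˣ}
  {α : E} (h2 : (2 : E) ≠ 0) (hα : α * α = a) (hs : S.s α = -α) {β : K}
  (hβ : algebraMap K E β = b)

theorem spq_apply (x : Qt a b) : spq (b := b) h2 hα x =
    !![x.re + α * x.imI, x.imJ + α * x.imK; b * (x.imJ - α * x.imK), x.re - α * x.imI] := rfl

/-- The form. -/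
noncomputable def Hf (β : K) : Matrix (Fin 2) (Fin 2) S.D :=
  Matrix.diagonal ![1, algebraMap K S.D (-β⁻¹)]

/-- The inverse of the form. -/
noncomputable def Hi (β : K) : Matrix (Fin 2) (Fin 2) S.D :=
  Matrix.diagonal ![1, algebraMap K S.D (-β)]

include hβ in
omit [StarRing K] in
theorem beta_ne : β ≠ 0 := fun h => b.ne_zero (by rw [← hβ, h, map_zero])

theorem Hi_Hf (h0 : β ≠ 0) : Hi S β * Hf S β = 1 := by
  rw [Hi, Hf, Matrix.diagonal_mul_diagonal, ← Matrix.diagonal_one]
  congr 1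
  ext i
  fin_cases i
  · simp
  · change algebraMap K S.D (-β) * algebraMap K S.D (-β⁻¹) = 1
    rw [← map_mul, neg_mul_neg, mul_inv_cancel₀ h0, map_one]

theorem Hf_Hi (h0 : β ≠ 0) : Hf S β * Hi S β = 1 := by
  rw [Hi, Hf, Matrix.diagonal_mul_diagonal, ← Matrix.diagonal_one]
  congr 1
  ext i
  fin_cases i
  · simp
  · change algebraMap K S.D (-β⁻¹) * algebraMap K S.D (-β) = 1
    rw [← map_mul, neg_mul_neg, inv_mul_cancel₀ h0, map_one]

include hs in
theorem spq_tws (hb : S.s b = b) (x : Qt a b) : spq (b := b) h2 hα (tws S.s x) =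
    !![S.s (spq (b := b) h2 hα x 0 0), -((b : E)⁻¹ * S.s (spq (b := b) h2 hα x 1 0));
      -(b * S.s (spq (b := b) h2 hα x 0 1)), S.s (spq (b := b) h2 hα x 1 1)] := by
  rw [spq_apply, spq_apply]
  have h0 : (b : E) ≠ 0 := b.ne_zero
  ext i j
  fin_cases i <;> fin_cases j
  · simp [tws, hs]
  · simp [tws, hs, hb]
    ring
  · simp [tws, hs]
    ring
  · simp [tws, hs]

include hs hβ in
/-- The involution corresponds to the adjoint involution of the form. -/
theorem mdag_th (hb : S.s b = b) (g : Matrix (Fin 2) (Fin 2) S.D) :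
    mdag S.s S.G (th S (spq (b := b) h2 hα) g) = th S (spq (b := b) h2 hα) (Hi S β * gᴴ * Hf S β) := by
  have h0 : β ≠ 0 := fun h => b.ne_zero (by rw [← hβ, h, map_zero])
  have e1 : ∀ (t : K) (z : S.D) (i j : Fin 3), S.f (algebraMap K S.D t * z) i j =
      algebraMap K E t * S.f z i j := by
    intro t z i j
    rw [map_mul, AlgHom.commutes, Matrix.algebraMap_eq_diagonal, Matrix.diagonal_mul]
    rfl
  have e2 : ∀ (t : K) (z : S.D) (i j : Fin 3), S.f (z * algebraMap K S.D t) i j =
      algebraMap K E t * S.f z i j := by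
    intro t z i j
    rw [← Algebra.commutes, e1]
  apply ext_f (spq (b := b) h2 hα)
  intro i j p q
  rw [th_apply, mdag, Matrix.of_apply, map_smul, Matrix.smul_apply, spq_tws S h2 hα hs hb,
    Hi, Hf, Matrix.mul_diagonal, Matrix.diagonal_mul, Matrix.conjTranspose_apply]
  have e3 : ∀ p q, spq (b := b) h2 hα (th S (spq (b := b) h2 hα) g j i) p q = S.f (g p q) j i :=
    fun p q => th_apply S _ g j i p q
  have e4 : ∀ z : S.D, S.f (star z) i j = ((S.G i)⁻¹ : Eˣ) * S.s (S.f z j i) * S.G j :=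
    fun z => rfl
  rw [e3, e3, e3, e3]
  fin_cases p <;> fin_cases q
  · simp only [Fin.zero_eta, Matrix.of_apply, Matrix.cons_val_zero, one_mul, mul_one]
    rw [e4, smul_eq_mul]
    ring
  · simp only [Fin.zero_eta, Fin.mk_one, Matrix.of_apply, Matrix.cons_val_zero,
      Matrix.cons_val_one, one_mul]
    rw [e2, e4, smul_eq_mul, map_neg, map_inv₀, hβ]
    ring
  · simp only [Fin.zero_eta, Fin.mk_one, Matrix.of_apply, Matrix.cons_val_zero,
      Matrix.cons_val_one, mul_one]
    rw [e1, e4, smul_eq_mul, map_neg, hβ]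
    ring
  · change (((S.G i)⁻¹ : Eˣ) * (S.G j : E)) • S.s (S.f (g 1 1) j i) =
      S.f (algebraMap K S.D (-β) * star (g 1 1) * algebraMap K S.D (-β⁻¹)) i j
    rw [e2, e1, e4, smul_eq_mul, map_neg, map_neg, map_inv₀, hβ]
    have h3 : (b : E) ≠ 0 := b.ne_zero
    field_simp

include hs hβ in
theorem mdag_mul_iff (hb : S.s b = b) (g : Matrix (Fin 2) (Fin 2) S.D) :
    mdag S.s S.G (th S (spq (b := b) h2 hα) g) * th S (spq (b := b) h2 hα) g = 1 ↔
      gᴴ * Hf S β * g = Hf S β := by
  have h0 : β ≠ 0 := fun h => b.ne_zero (by rw [← hβ, h, map_zero])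
  rw [mdag_th S h2 hα hs hβ hb, ← map_mul]
  constructor
  · intro h
    have h1 := th_injective S _ (h.trans (map_one (th S (spq (b := b) h2 hα))).symm)
    have h2 := congrArg (fun m => Hf S β * m) h1
    simpa only [← Matrix.mul_assoc, Hf_Hi S h0, Matrix.one_mul, Matrix.mul_one] using h2
  · intro h
    have h1 : Hi S β * gᴴ * Hf S β * g = 1 := by
      rw [Matrix.mul_assoc, Matrix.mul_assoc, ← Matrix.mul_assoc gᴴ, h, Hi_Hf S h0]
    rw [h1, map_one]

end dag

end Vale.Agent.P011.E6O.H68
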