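import Vale.Agent.P011S.Defs2
import Vale.Agent.P011.E6O.H68.Th
import Vale.Agent.P011.E6O.Defs

/-!
The special unitary group of rank two over the cyclic algebra belongs to the finite residual.
-/

open Matrix

namespace Vale.Agent.P011.E6O.H68

open Vale.Agent.P011.MPQ Vale.Agent.P011.D4 Vale.Agent.P011.D4.Oct Vale.Agent.P011.E6
open Vale.Agent.P011.E6.H64 Vale.Agent.P011.E6.Alb
open Vale.Agent.P011.E6I (MQ toMQ)
open Vale.Agent.P011S (UH SU redNorm IsAnisotropicForm)

section dict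

variable {k E : Type} [Field k] [Field E] [Algebra k E] {ρ σ : E ≃ₐ[k] E} {lam : Eˣ}
  {g : Fin 3 → Eˣ} {a b : kˣ}

theorem tws_eq {s : E ≃+* E} (hs : ∀ x, s x = σ x) (x : Qt (up E a) (up E b)) :
    tws s x = star (qmap σ x) := by
  apply QuaternionAlgebra.ext <;> simp [tws, hs]

theorem mdag_eq {s : E ≃+* E} (hs : ∀ x, s x = σ x) (m : MQ E a b) :
    mdag s g m = dgi (up E a) (up E b) g * (m.map (qmap σ)).conjTranspose *
      dg (up E a) (up E b) g := by
  ext1 i j
  rw [dgi, dg, Matrix.mul_diagonal, Matrix.diagonal_mul, Matrix.conjTranspose_apply,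
    Matrix.map_apply, mdag, Matrix.of_apply, tws_eq hs, ← Algebra.commutes, ← mul_assoc,
    ← map_mul, ← Algebra.smul_def, mul_comm (((g i)⁻¹ : Eˣ) : E)]

theorem isUn_iff {s : E ≃+* E} (hs : ∀ x, s x = σ x) (m : MQ E a b) :
    IsUn σ g 1 m ↔ mdag s g m * m = 1 := by
  rw [mdag_eq hs, IsUn, one_smul]
  constructor
  · intro h
    rw [Matrix.mul_assoc, Matrix.mul_assoc, ← Matrix.mul_assoc (m.map _).conjTranspose, h,
      dgi_mul_dg]
  · intro h
    have h1 := congrArg (fun x => dg (up E a) (up E b) g * x) h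
    simpa only [← Matrix.mul_assoc, dg_mul_dgi, Matrix.one_mul, Matrix.mul_one] using h1

variable {al : E} (h2 : (2 : E) ≠ 0) (hα : al * al = up E a)

theorem spq_qmap (ha : ρ al = al) (x : Qt (up E a) (up E b)) :
    spq h2 hα (qmap ρ x) = (spq h2 hα x).map ρ := by
  rw [spq_apply, spq_apply]
  have hb : ρ (algebraMap k E b) = algebraMap k E b := ρ.commutes _
  ext i j
  fin_cases i <;> fin_cases j <;> simp [qmap, ha, hb]

theorem spq_mul_alg (x : Qt (up E a) (up E b)) (t : E) :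
    spq h2 hα (x * algebraMap E _ t) = t • spq h2 hα x := by
  rw [← Algebra.commutes, ← Algebra.smul_def, map_smul]

theorem spq_alg_mul (x : Qt (up E a) (up E b)) (t : E) :
    spq h2 hα (algebraMap E _ t * x) = t • spq h2 hα x := by
  rw [← Algebra.smul_def, map_smul]

/-- The matrices of `D ⊗ Q` in blocks. -/
theorem inD_iff (ha : ρ al = al) (m : MQ E a b) : InD ρ lam m ↔
    ∀ p q, InD0 ρ lam (Matrix.of fun i j => spq h2 hα (m i j) p q) := by
  have e1 : ∀ i j p q, spq h2 hα ((m * toMQ (um lam) : MQ E a b) i j) p q =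
      ((Matrix.of fun i j => spq h2 hα (m i j) p q) * um lam) i j := by
    intro i j p q
    rw [Matrix.mul_apply, map_sum, Matrix.sum_apply, Matrix.mul_apply]
    refine Finset.sum_congr rfl fun l _ => ?_
    rw [toMQ, Matrix.map_apply, spq_mul_alg, Matrix.smul_apply, smul_eq_mul, mul_comm]
    rfl
  have e2 : ∀ i j p q, spq h2 hα ((toMQ (um lam) * m.map (qmap ρ) : MQ E a b) i j) p q =
      (um lam * (Matrix.of fun i j => spq h2 hα (m i j) p q).map ρ) i j := by
    intro i j p q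
    rw [Matrix.mul_apply, map_sum, Matrix.sum_apply, Matrix.mul_apply]
    refine Finset.sum_congr rfl fun l _ => ?_
    rw [toMQ, Matrix.map_apply, spq_alg_mul, Matrix.smul_apply, smul_eq_mul, Matrix.map_apply,
      spq_qmap h2 hα ha]
    rfl
  constructor
  · intro h p q
    ext i j
    rw [← e1, ← e2, h]
  · intro h
    apply ext_f (spq h2 hα)
    intro i j p q
    rw [e1, e2, h p q]

/-- The image of the matrices of degree two over the cyclic algebra. -/
theorem exists_thD {K : Type} [Field K] [StarRing K] [Algebra K E] (S : Dat K E)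
    (hρ : ∀ x, S.ρ x = ρ x) (hl : algebraMap K E S.lam = lam) (ha : ρ al = al)
    {m : MQ E a b} (hm : InD ρ lam m) :
    ∃ x : Matrix (Fin 2) (Fin 2) S.D, th S (spq h2 hα) x = m := by
  apply exists_th
  intro p q
  have h := (inD_iff h2 hα ha m).1 hm p q
  have e1 : E6I.u0 E S.lam = um lam := by
    have e : (up E S.lam : Eˣ) = lam := Units.ext hl
    rw [E6I.u0, um, e]
  rw [E6I.InD0, e1]
  rw [InD0] at h
  rw [h]
  congr 1
  ext i j
  rw [Matrix.map_apply, Matrix.map_apply, hρ]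

theorem thD_mem {K : Type} [Field K] [StarRing K] [Algebra K E] (S : Dat K E)
    (hρ : ∀ x, S.ρ x = ρ x) (hl : algebraMap K E S.lam = lam) (ha : ρ al = al)
    (x : Matrix (Fin 2) (Fin 2) S.D) : InD ρ lam (th S (spq h2 hα) x : MQ E a b) := by
  rw [inD_iff h2 hα ha]
  intro p q
  have h := th_mem S (spq (b := up E b) h2 hα) x p q
  have e1 : E6I.u0 E S.lam = um lam := by
    have e : (up E S.lam : Eˣ) = lam := Units.ext hl
    rw [E6I.u0, um, e]
  rw [E6I.InD0, e1] at h
  rw [InD0, h]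
  congr 1
  ext i j
  rw [Matrix.map_apply, Matrix.map_apply, hρ]

end dict

theorem mem_su {K D F : Type} [Field K] [DivisionRing D] [StarRing D] [Algebra K D] [Field F]
    [Algebra K F] {p : ℕ} (f : D →ₐ[K] Matrix (Fin p) (Fin p) F) {m : ℕ}
    (H : Matrix (Fin m) (Fin m) D) (x : (Matrix (Fin m) (Fin m) D)ˣ) :
    x ∈ SU f H ↔ x ∈ UH H ∧ redNorm f (Fin m) (x : Matrix (Fin m) (Fin m) D) = 1 := Iff.rfl

section main

variable {k E : Type} [Field k] [Field E] [Algebra k E] {ρ σ : E ≃ₐ[k] E} {lam : Eˣ}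
  {g : Fin 3 → Eˣ} {a b c : kˣ} {al : E} (h2 : (2 : E) ≠ 0)

/-- The special unitary group of rank two belongs to the finite residual. -/
theorem su_res (hα : al * al = up E a) (ha : ρ al = al) (hσa : σ al = -al)
    {K : Type} [Field K] [StarRing K] [Algebra K E] (S : Dat K E)
    (hρ : ∀ x, S.ρ x = ρ x) (hs : ∀ x, S.s x = σ x) (hl : algebraMap K E S.lam = lam)
    (hG : S.G = g) {β : K} (hβ : algebraMap K E β = up E b)
    (htop : ∀ N : Subgroup (SU S.f (Hf S β)), N.index ≠ 0 → N = ⊤)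
    (hmem : ∀ m : (MQ E a b)ˣ, InD ρ lam (m : MQ E a b) → IsUn σ g 1 (m : MQ E a b) →
      nu (m : MQ E a b) = 1 → (actL h2 m 1 : AlbL E a b c ≃ₗ[E] _) ∈ GO ρ σ lam g a b c)
    {m : (MQ E a b)ˣ} (hm : InD ρ lam (m : MQ E a b)) (hu : IsUn σ g 1 (m : MQ E a b))
    (hn : nu (m : MQ E a b) = 1) {φ : AlbL E a b c ≃ₗ[E] AlbL E a b c}
    (hφ : ∀ x, φ x = Alb.act m 1 x) : φ ∈ Res ρ σ lam g a b c := by
  subst hG
  have hbs : S.s (up E b : E) = up E b := by
    rw [hs]; exact σ.commutes _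
  have hα' : S.s al = -al := by rw [hs, hσa]
  let T : (Matrix (Fin 2) (Fin 2) S.D)ˣ →* (MQ E a b)ˣ :=
    Units.map (th S (spq (b := up E b) h2 hα) : _ →* _)
  have hT : ∀ x, ((T x : (MQ E a b)ˣ) : MQ E a b) = th S (spq (b := up E b) h2 hα) x :=
    fun _ => rfl
  have h1 : ∀ x ∈ SU S.f (Hf S β), InD ρ lam (T x : MQ E a b) ∧
      IsUn σ S.G 1 (T x : MQ E a b) ∧ nu (T x : MQ E a b) = 1 := by
    rintro x hx0
    obtain ⟨hx1, hx2⟩ := (mem_su S.f (Hf S β) x).1 hx0
    refine ⟨?_, ?_, ?_⟩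
    · rw [hT]; exact thD_mem h2 hα S hρ hl ha _
    · rw [isUn_iff hs, hT, mdag_mul_iff S h2 hα hα' hβ hbs]
      exact hx1
    · rw [hT, nu_th S _ h2 (det_spq h2 hα)]
      exact hx2
  let Φ : SU S.f (Hf S β) →* GO ρ σ lam S.G a b c :=
    { toFun := fun x => ⟨actL h2 (T x.1) 1, hmem _ (h1 x.1 x.2).1 (h1 x.1 x.2).2.1
        (h1 x.1 x.2).2.2⟩
      map_one' := by
        apply Subtype.ext
        apply LinearEquiv.ext
        intro x
        change act (T 1) 1 x = x
        rw [map_one]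
        exact act_one_one h2 x
      map_mul' := fun x y => by
        apply Subtype.ext
        apply LinearEquiv.ext
        intro z
        change act (T (x.1 * y.1)) 1 z = act (T x.1) 1 (act (T y.1) 1 z)
        rw [map_mul, act_act h2, mul_one] }
  obtain ⟨x, hx⟩ := exists_thD h2 hα S hρ hl ha hm
  have hinj := th_injective S (spq (b := up E b) h2 hα)
  obtain ⟨y, hy⟩ : ∃ y, th S (spq (b := up E b) h2 hα) y =
      ((m⁻¹ : (MQ E a b)ˣ) : MQ E a b) := by
    have h3 := (mdag_mul_iff S h2 hα hα' hβ hbs x).2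
    have h4 : mdag S.s S.G (m : MQ E a b) * (m : MQ E a b) = 1 := (isUn_iff hs _).1 hu
    have h5 : mdag S.s S.G (m : MQ E a b) = ((m⁻¹ : (MQ E a b)ˣ) : MQ E a b) :=
      Units.eq_inv_of_mul_eq_one_right h4
    refine ⟨Hi S β * xᴴ * Hf S β, ?_⟩
    rw [← mdag_th S h2 hα hα' hβ hbs, hx, h5]
  let x' : (Matrix (Fin 2) (Fin 2) S.D)ˣ :=
    ⟨x, y, hinj (by rw [map_mul, hx, hy, map_one]; exact Units.mul_inv m),
      hinj (by rw [map_mul, hx, hy, map_one]; exact Units.inv_mul m)⟩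
  have hTx : T x' = m := Units.ext hx
  have hxS : x' ∈ SU S.f (Hf S β) := by
    rw [mem_su]
    refine ⟨?_, ?_⟩
    · change xᴴ * Hf S β * x = Hf S β
      rw [← mdag_mul_iff S h2 hα hα' hβ hbs, hx]
      exact (isUn_iff hs _).1 hu
    · change redNorm S.f (Fin 2) x = 1
      rw [← nu_th S (spq (b := up E b) h2 hα) h2 (det_spq h2 hα), hx, hn]
  refine ⟨Φ ⟨x', hxS⟩, ?_, ?_⟩
  · rw [SetLike.mem_coe, Subgroup.mem_sInf]
    intro N hN
    have h6 : (N.comap Φ).index ≠ 0 := by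
      intro h0
      apply hN
      rw [Subgroup.index_comap] at h0
      exact Subgroup.index_eq_zero_of_relIndex_eq_zero h0
    have h7 := htop _ h6
    have h8 : (⟨x', hxS⟩ : SU S.f (Hf S β)) ∈ N.comap Φ := by rw [h7]; exact Subgroup.mem_top _
    exact h8
  · apply LinearEquiv.ext
    intro z
    change act (T x') 1 z = φ z
    rw [hTx, hφ]

end main

end Vale.Agent.P011.E6O.H68
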