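import Vale.Agent.P011.E6O.Land1
import Vale.Agent.P011.E6O.Dict
import Vale.Agent.P011.D4.NTS

/-!
The hermitian form of rank two over the cyclic algebra is anisotropic.
-/

open NumberField Matrix

namespace Vale.Agent.P011.E6O

open Vale.Agent.P011.MPQ Vale.Agent.P011.D4 Vale.Agent.P011.D4.Oct Vale.Agent.P011.E6
open scoped ComplexConjugate

namespace H68

theorem exists_def {k : Type} [Field k] [NumberField k] {a b c : kˣ} (hdiv : Division a b c) :
    ∃ φ : k →+* ℝ, φ a < 0 ∧ φ b < 0 ∧ φ c < 0 := by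
  by_contra hcon
  push Not at hcon
  obtain ⟨q, hq⟩ := exists_nrd (a := a) (b := b) c fun φ ha hb =>
    lt_of_le_of_ne (hcon φ ha hb) (by
      rw [Ne, eq_comm, map_eq_zero]
      exact c.ne_zero)
  have h := hdiv ⟨q, 1⟩ (by
    have e : nrd (1 : Qt a b) = 1 := nrd_one
    rw [Oct.norm, hq, e, mul_one, sub_self])
  have h1 : (1 : Qt a b) = 0 := congrArg Oct.snd h
  have h2 : (1 : k) = 0 := by simpa using congrArg (fun x : Qt a b => x.re) h1
  exact one_ne_zero h2

/-- A weighted sum of squares of absolute values. -/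
theorem sum_zero {n : ℕ} {γ : Fin n → ℝ} {ε : ℝ} (hγ : ∀ i, 0 < ε * γ i) {t : ℝ} (ht : t < 0)
    {x y : Fin n → ℂ}
    (h : ∑ i, ((γ i : ℂ)⁻¹ * (x i * star (x i)) - (t : ℂ) * ((γ i : ℂ)⁻¹ * (y i * star (y i))))
      = 0) (i : Fin n) : x i = 0 ∧ y i = 0 := by
  have h1 : ∑ i, (ε * (γ i)⁻¹ * (Complex.normSq (x i) - t * Complex.normSq (y i))) = 0 := by
    have h2 : (∑ i, ((γ i)⁻¹ * (Complex.normSq (x i) - t * Complex.normSq (y i))) : ℝ) = 0 := by
      have h3 : ((∑ i, ((γ i)⁻¹ * (Complex.normSq (x i) - t * Complex.normSq (y i))) : ℝ) : ℂ) =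
          0 := by
        rw [← h]
        push_cast
        refine Finset.sum_congr rfl fun i _ => ?_
        simp only [Complex.star_def, Complex.mul_conj]
        ring
      exact_mod_cast h3
    simp only [mul_assoc]
    rw [← Finset.mul_sum, h2, mul_zero]
  have hp : ∀ i, 0 < ε * (γ i)⁻¹ := fun i => by
    have h0 : γ i ≠ 0 := fun h0 => by
      have := hγ i
      rw [h0, mul_zero] at this
      exact lt_irrefl _ this
    have h4 : ε * (γ i)⁻¹ = (ε * γ i) * ((γ i)⁻¹ * (γ i)⁻¹) := by
      field_simp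
    rw [h4]
    exact mul_pos (hγ i) (mul_self_pos.2 (inv_ne_zero h0))
  have hq : ∀ i, 0 ≤ Complex.normSq (x i) - t * Complex.normSq (y i) := fun i => by
    nlinarith [Complex.normSq_nonneg (x i), Complex.normSq_nonneg (y i)]
  have h5 := (Finset.sum_eq_zero_iff_of_nonneg
    (fun i _ => mul_nonneg (hp i).le (hq i))).1 h1 i (Finset.mem_univ i)
  have h6 : Complex.normSq (x i) - t * Complex.normSq (y i) = 0 :=
    (mul_eq_zero.1 h5).resolve_left (hp i).ne'
  have h7 : Complex.normSq (x i) = 0 := by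
    nlinarith [Complex.normSq_nonneg (x i), Complex.normSq_nonneg (y i)]
  have h8 : Complex.normSq (y i) = 0 := by
    nlinarith [Complex.normSq_nonneg (x i), Complex.normSq_nonneg (y i)]
  exact ⟨Complex.normSq_eq_zero.1 h7, Complex.normSq_eq_zero.1 h8⟩

/-- The form is anisotropic if it is definite at one place. -/
theorem han {K E : Type} [Field K] [StarRing K] [Field E] [Algebra K E] (S : Dat K E)
    (w : E →+* ℂ) (hw : ∀ x, w (S.s x) = star (w x)) {γ : Fin 3 → ℝ}
    (hγ : ∀ i, w (S.G i) = γ i) {ε : ℝ} (hε : ∀ i, 0 < ε * γ i) {β : K} {t : ℝ}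
    (hβ : w (algebraMap K E β) = t) (ht : t < 0) {x y : S.D}
    (h : x * star x + y * algebraMap K S.D (-β) * star y = 0) : x = 0 ∧ y = 0 := by
  have h1 := congrArg S.f h
  rw [map_add, map_mul, mul_assoc, map_mul, map_mul, AlgHom.commutes, map_zero, S.f_star,
    S.f_star, map_neg] at h1
  have key : ∀ i j, w (S.f x i j) = 0 ∧ w (S.f y i j) = 0 := by
    intro i
    have h2 := congrArg w (congrFun (congrFun h1 i) i)
    rw [Matrix.add_apply, Matrix.mul_apply, Matrix.mul_apply, Matrix.zero_apply, map_zero,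
      map_add, map_sum, map_sum] at h2
    have hGi : w (S.G i) ≠ 0 := fun h0 => (S.G i).ne_zero ((map_eq_zero w).1 h0)
    have e1 : ∀ (z : S.D) j, w (S.f z i j * S.dag (S.f z) j i) =
        w (S.G i) * ((γ j : ℂ)⁻¹ * (w (S.f z i j) * star (w (S.f z i j)))) := by
      intro z j
      rw [S.dag_apply, map_mul, map_mul, map_mul, Units.val_inv_eq_inv_val, map_inv₀, hw, hγ j]
      ring
    have e2 : ∀ j, w (S.f y i j * ((-algebraMap K (Matrix (Fin 3) (Fin 3) E) β) *
        S.dag (S.f y)) j i) =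
        w (S.G i) * (-(t : ℂ) * ((γ j : ℂ)⁻¹ * (w (S.f y i j) * star (w (S.f y i j))))) := by
      intro j
      have e3 : ((-algebraMap K (Matrix (Fin 3) (Fin 3) E) β) * S.dag (S.f y)) j i =
          -(algebraMap K E β) * S.dag (S.f y) j i := by
        rw [Matrix.neg_mul, Matrix.neg_apply, Matrix.algebraMap_eq_diagonal,
          Matrix.diagonal_mul, neg_mul]
        rfl
      rw [e3, S.dag_apply, map_mul, map_mul, map_mul, map_mul, map_neg,
        Units.val_inv_eq_inv_val, map_inv₀, hw, hγ j, hβ]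
      ring
    have h3 : w (S.G i) * ∑ j, ((γ j : ℂ)⁻¹ * (w (S.f x i j) * star (w (S.f x i j))) -
        (t : ℂ) * ((γ j : ℂ)⁻¹ * (w (S.f y i j) * star (w (S.f y i j))))) = 0 := by
      rw [← h2, Finset.mul_sum, ← Finset.sum_add_distrib]
      refine Finset.sum_congr rfl fun j _ => ?_
      rw [e1, e2]
      ring
    exact sum_zero hε ht ((mul_eq_zero.1 h3).resolve_left hGi)
  constructor
  · apply S.f_injective
    rw [map_zero]
    ext i j
    exact (map_eq_zero w).1 (key i j).1
  · apply S.f_injective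
    rw [map_zero]
    ext i j
    exact (map_eq_zero w).1 (key i j).2

end H68

variable {k E : Type} [Field k] [NumberField k] [Field E] [NumberField E] [Algebra k E]
  {ρ σ : E ≃ₐ[k] E} {lam : Eˣ} {g : Fin 3 → Eˣ} {al s : E} {a b c : kˣ}
  (H : Hyp ρ σ lam g al s a b c)

include H

/-- A complex place over a real place at which the octonion algebra is definite. -/
theorem Hyp.exists_w {K : Type} [Field K] [NumberField K] [StarRing K] [Algebra K E]
    (S : Dat K E) (hs : ∀ x, S.s x = σ x) (hK : ∀ t : K, ρ (algebraMap K E t) = algebraMap K E t)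
    {τ : k →+* ℝ} (hτ : τ a < 0) :
    ∃ w : E →+* ℂ, (∀ x, w (σ x) = conj (w x)) ∧ ∀ t : k, w (algebraMap k E t) = τ t := by
  have hfin : FiniteDimensional k E := Module.finite_of_finrank_pos (by rw [H.h6]; norm_num)
  let _ : Algebra k ℂ := (Complex.ofRealHom.comp τ).toAlgebra
  obtain ⟨w', -⟩ : ∃ w : E →ₐ[k] ℂ, w = w := ⟨IsAlgClosed.lift, rfl⟩
  have hw' : ∀ t : k, (w' : E →+* ℂ) (algebraMap k E t) = τ t := fun t => w'.commutes t
  obtain ⟨w, hw⟩ : ∃ w : E →+* ℂ, w = (w' : E →+* ℂ) := ⟨_, rfl⟩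
  rw [← hw] at hw'
  refine ⟨w, ?_, hw'⟩
  have hal : (w al) * (w al) = τ a := by rw [← map_mul, ← pow_two, H.al2, hw']
  have hre : (w al).re = 0 := by
    have h1 := congrArg Complex.re hal
    have h2 := congrArg Complex.im hal
    rw [Complex.mul_re, Complex.ofReal_re] at h1
    rw [Complex.mul_im, Complex.ofReal_im] at h2
    by_contra h0
    have h3 : (w al).im = 0 := by
      have : (w al).re * (w al).im = 0 := by linarith
      exact (mul_eq_zero.1 this).resolve_left h0
    rw [h3] at h1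
    nlinarith [sq_nonneg (w al).re]
  have hconj : star (w al) = -w al := by
    apply Complex.ext
    · simp [hre]
    · simp
  have hwK : ∀ x : K, w (algebraMap K E (star x)) = star (w (algebraMap K E x)) := by
    intro x
    obtain ⟨x0, x1, hx⟩ := H.exists_kal (hK x)
    rw [← S.sK, hs, hx, map_add, map_mul, H.σal, AlgEquiv.commutes, AlgEquiv.commutes]
    simp only [map_add, map_mul, map_neg, star_add, star_mul', hw', hconj]
    simp
  intro x
  rw [← hs]
  exact Dat.s_conj (S := S) w hwK x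

/-- The hermitian form of rank two is anisotropic. -/
theorem Hyp.han {K : Type} [Field K] [NumberField K] [StarRing K] [Algebra K E]
    (S : Dat K E) (hs : ∀ x, S.s x = σ x) (hK : ∀ t : K, ρ (algebraMap K E t) = algebraMap K E t)
    (hG : S.G = g) {β : K} (hβ : algebraMap K E β = algebraMap k E b) {x y : S.D}
    (h : x * star x + y * algebraMap K S.D (-β) * star y = 0) : x = 0 ∧ y = 0 := by
  obtain ⟨τ, ha, hb, -⟩ := H68.exists_def H.hdiv
  obtain ⟨w, hw, hwτ⟩ := H.exists_w S hs hK ha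
  have hreal : ∀ i, ∃ r : ℝ, w (S.G i) = r := by
    intro i
    apply Complex.conj_eq_iff_real.1
    rw [← hw, hG, H.σg]
  choose γ hγ using hreal
  have h2 := H.hpos w hw
  rw [map_mul, map_mul, ← hG, hγ, hγ, hγ, ← Complex.ofReal_mul, ← Complex.ofReal_mul,
    Complex.ofReal_re, Complex.ofReal_re] at h2
  refine H68.han S w (fun x => by rw [hs, hw]; rfl) hγ (ε := γ 1) (fun i => ?_) (β := β)
    (t := τ b) (by rw [hβ, hwτ]) hb h
  fin_cases i
  · rw [mul_comm]; exact h2.1
  · change 0 < γ 1 * γ 1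
    have : γ 1 ≠ 0 := fun h0 => by
      rw [h0, mul_zero] at h2
      exact lt_irrefl _ h2.1
    exact mul_self_pos.2 this
  · exact h2.2

end Vale.Agent.P011.E6O
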