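import Vale.Agent.P011.E6O.H68.SuTop
import Vale.Agent.P011.E6O.H68.An
import Vale.Agent.P011.E6O.H24.Bas

/-!
The special unitary group of rank two over the cyclic algebra belongs to the finite residual.
-/

open NumberField Matrix

namespace Vale.Agent.P011.E6O

open Vale.Agent.P011.MPQ Vale.Agent.P011.D4 Vale.Agent.P011.D4.Oct Vale.Agent.P011.E6
open Vale.Agent.P011.E6I (MQ toMQ)

variable {k E : Type} [Field k] [NumberField k] [Field E] [NumberField E] [Algebra k E]
  {ρ σ : E ≃ₐ[k] E} {lam : Eˣ} {g : Fin 3 → Eˣ} {al s : E} {a b c : kˣ}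

/-- The special unitary group of rank two belongs to the finite residual. -/
theorem su_Res (H : Hyp ρ σ lam g al s a b c) {m : (MQ E a b)ˣ} (hm : InD ρ lam (m : MQ E a b))
    (hu : IsUn σ g 1 (m : MQ E a b)) (hn : nu (m : MQ E a b) = 1)
    {φ : AlbL E a b c ≃ₗ[E] AlbL E a b c} (hφ : ∀ x, φ x = Alb.act m 1 x) :
    φ ∈ Res ρ σ lam g a b c := by
  obtain ⟨K, _, _, _, _, S, h1, h2, h3, h4, -, h5, h6, h7, h8⟩ := H.exists_dat
  have hα : al * al = up E a := by rw [← pow_two, H.al2]; rfl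
  obtain ⟨β, hβ⟩ := h5 (algebraMap k E b) (ρ.commutes _)
  have hβs : star β = β := by
    apply (algebraMap K E).injective
    rw [h7, hβ, AlgEquiv.commutes]
  have hβ0 : β ≠ 0 := fun h => b.ne_zero ((map_eq_zero (algebraMap k E)).1
    (by rw [← hβ, h, map_zero]))
  refine H68.su_res two_ne_zero hα H.ρal H.σal S h1 h2 h3 h4 hβ
    (H68.su_top S h8 hβs hβ0 fun x y h => H.han S h2 h6 h4 hβ h) (fun m hm hu hn => ?_)
    hm hu hn hφ
  obtain ⟨ψ, hψ, hψ'⟩ := exists_act H hm hu hn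
  have e : (H64.actL two_ne_zero m 1 : AlbL E a b c ≃ₗ[E] _) = ψ := by
    apply LinearEquiv.ext
    intro x
    rw [H64.actL_apply, Units.val_one, hψ']
  rw [e]
  exact hψ

end Vale.Agent.P011.E6O
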