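import Vale.Agent.P011.F3.Main
import Vale.Agent.P011.E6O.H68.S3a

/-!
The subgroups of finite index of the special unitary group of rank two over the cyclic algebra.
-/

open Matrix

namespace Vale.Agent.P011.E6O.H68

open Vale.Agent.P011S (UH SU redNorm IsAnisotropicForm)

variable {K E : Type} [Field K] [StarRing K] [Field E] [Algebra K E] (S : Dat K E)

theorem aniso_Hf {β : K} (hβs : star β = β) (h0 : β ≠ 0)
    (han : ∀ x y : S.D, x * star x + y * algebraMap K S.D (-β) * star y = 0 → x = 0 ∧ y = 0) :
    IsAnisotropicForm (Hf S β) := by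
  refine ⟨?_, fun v hv => ?_⟩
  · rw [Hf, Matrix.diagonal_conjTranspose]
    congr 1
    ext i
    fin_cases i
    · exact star_one _
    · change star (algebraMap K S.D (-β⁻¹)) = algebraMap K S.D (-β⁻¹)
      rw [← algebraMap_star_comm, star_neg, star_inv₀, hβs]
  · have h1 : star (v 0) * v 0 + star (v 1) * (algebraMap K S.D (-β⁻¹) * v 1) = 0 := by
      rw [← hv, dotProduct, Fin.sum_univ_two, Hf, mulVec_diagonal, mulVec_diagonal]
      simp
    have h2 := han (star (v 0)) (algebraMap K S.D β⁻¹ * star (v 1)) (by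
      rw [star_mul, star_star, star_star, ← algebraMap_star_comm, star_inv₀, hβs, ← h1]
      congr 1
      have e1 : algebraMap K S.D β⁻¹ * star (v 1) = star (v 1) * algebraMap K S.D β⁻¹ :=
        Algebra.commutes _ _
      have e2 : v 1 * algebraMap K S.D β⁻¹ = algebraMap K S.D β⁻¹ * v 1 :=
        (Algebra.commutes _ _).symm
      rw [e1, e2, mul_assoc, mul_assoc, ← mul_assoc (algebraMap K S.D (-β)), ← map_mul,
        ← mul_assoc (algebraMap K S.D β⁻¹), ← map_mul]
      congr 3
      field_simp)
    have h3 : v 0 = 0 := star_eq_zero.1 h2.1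
    have h4 : v 1 = 0 := by
      rcases mul_eq_zero.1 h2.2 with h | h
      · rw [map_eq_zero, inv_eq_zero] at h
        exact absurd h h0
      · exact star_eq_zero.1 h
    ext i
    fin_cases i
    · exact h3
    · exact h4

theorem su_top [NumberField K] (hK : ∃ t : K, star t ≠ t) {β : K} (hβs : star β = β)
    (h0 : β ≠ 0)
    (han : ∀ x y : S.D, x * star x + y * algebraMap K S.D (-β) * star y = 0 → x = 0 ∧ y = 0) :
    ∀ N : Subgroup (SU S.f (Hf S β)), N.index ≠ 0 → N = ⊤ :=
  (Vale.Agent.P011.F3.all_clauses (K := K) (D := S.D) (F := E) hK (by norm_num) S.finrank_D S.f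
    (le_refl 2) (Hf S β) (aniso_Hf S hβs h0 han)).1

end Vale.Agent.P011.E6O.H68
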